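import Vale.Agent.Lib.P154.Neg.LP.B4200.D
import Vale.Agent.Lib.P154.Neg.LP.B4200.P0
import Vale.Agent.Lib.P154.Neg.LP.B4200.P1
import Vale.Agent.Lib.P154.Neg.LP.B4200.P2
import Vale.Agent.Lib.P154.Neg.LP.B4200.P3
import Vale.Agent.Lib.P154.Neg.LP.B4200.P4

/-!
A certificate for a restricted range of `theta`, with all its checks.
-/

namespace Vale.Agent.Lib.P154.Neg.B4200

open Vale.Agent.Lib.P154.Neg.Kron Vale.Agent.Lib.P154.Neg Vale.Agent.Lib.P154.Neg.Cst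

theorem ctY1_2 : checkCT C.A C.eY1 (c02 (c02 (MC C.a0 C.b0 C.c0))) tY1_2 = true := checkCT_s02 ctY1_3 ctY1_4

theorem ctY1_1 : checkCT C.A C.eY1 (c02 (MC C.a0 C.b0 C.c0)) tY1_1 = true := checkCT_s02 ctY1_2 ctY1_5

theorem ctY1_0 : checkCT C.A C.eY1 (MC C.a0 C.b0 C.c0) tY1_0 = true := checkCT_s02 ctY1_1 ctY1_6

theorem ctQ1_0 : checkTree 4 (eQ1t C) btQ1_root tQ1_0 = true := checkTree_split ctQ1_1 ctQ1_2

theorem ctQ3_2 : checkTree 4 (eQ3t C) btQ3_1l tQ3_2 = true := checkTree_split ctQ3_3 ctQ3_4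

theorem ctQ3_1 : checkTree 4 (eQ3t C) btQ3_0l tQ3_1 = true := checkTree_split ctQ3_2 ctQ3_5

theorem ctQ3_8 : checkTree 4 (eQ3t C) btQ3_7l tQ3_8 = true := checkTree_split ctQ3_9 ctQ3_10

theorem ctQ3_7 : checkTree 4 (eQ3t C) btQ3_6l tQ3_7 = true := checkTree_split ctQ3_8 ctQ3_11

theorem ctQ3_6 : checkTree 4 (eQ3t C) btQ3_0r tQ3_6 = true := checkTree_split ctQ3_7 ctQ3_12

theorem ctQ3_0 : checkTree 4 (eQ3t C) btQ3_root tQ3_0 = true := checkTree_split ctQ3_1 ctQ3_6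

theorem cChord : checkAuto 2 C.eChord = true := by decide +kernel

theorem cX : checkCT C.A C.eX (M0) C.tX = true := ctX_0

theorem cY1 : checkCT C.A C.eY1 (MC C.a0 C.b0 C.c0) C.tY1 = true := ctY1_0

theorem cY2 : checkCT C.A C.eY2 (MC C.a0 C.b0 C.c0) C.tY2 = true := ctY2_0

theorem cM1 : checkCT C.A (psub (.var 0) (.var 2)) M0 C.tM1 = true := by decide +kernel

theorem cM2 : checkCT C.A (psub (.var 1) (.var 2)) M0 C.tM2 = true := by decide +kernel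

theorem cN1 : checkCT C.A (psub (pk 1) (.var 0)) M0 C.tN1 = true := by decide +kernel

theorem cN2 : checkCT C.A (psub (pk 1) (.var 1)) M0 C.tN2 = true := by decide +kernel

theorem wQ1 : PQ.wf 4 (eQ1t C) = true := by decide +kernel

theorem cQ1 : checkTree 4 (eQ1t C) [C.bRho, C.bBeta, C.bT, C.bKap] C.tQ1 = true := ctQ1_0

theorem wQ2 : PQ.wf 4 (eQ2t C) = true := by decide +kernel

theorem cQ2 : checkTree 4 (eQ2t C) [C.bSig, C.bNu, C.bBeta, C.bT] C.tQ2 = true := by decide +kernel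

theorem wQ3 : PQ.wf 4 (eQ3t C) = true := by decide +kernel

theorem cQ3 : checkTree 4 (eQ3t C) [X.bR3, C.bBeta, C.bT, C.bTh] X.tQ3 = true := ctQ3_0

theorem wW : PQ.wf 2 C.eWp = true := by decide +kernel

theorem cW : checkTree 2 C.eWp [X.bRW, C.bBeta] C.tW = true := by decide +kernel

theorem wK : PQ.wf 2 C.eKg = true := by decide +kernel

theorem cK : checkTree 2 C.eKg [C.bTh, C.bEps] C.tK = true := by decide +kernel

theorem wS1 : PQ.wf 2 C.eS1 = true := by decide +kernel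

theorem cS1 : checkTree 2 C.eS1 [C.bTh, C.bEps] C.tS1 = true := by decide +kernel

theorem wS2 : PQ.wf 2 C.eS2 = true := by decide +kernel

theorem cS2 : checkTree 2 C.eS2 [C.bTh, C.bEps] C.tS2 = true := by decide +kernel

theorem wC : PQ.wf 3 (eRr (.var 2) (.var 0) (.var 1)) = true := by decide +kernel

theorem cC : checkTree 3 (eRr (.var 2) (.var 0) (.var 1)) [C.bTh, C.bTh, C.bEps] C.tC = true := by decide +kernel

theorem wXi : PQ.wf 2 C.eXiE = true := by decide +kernel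

theorem cXi : checkTree 2 C.eXiE [C.bTh, C.bEps] C.tXi = true := by decide +kernel

theorem wE : PQ.wf 2 C.Ek = true := by decide +kernel

theorem cE : checkTree 2 C.Ek [C.bTh, C.bEps] C.tE = true := by decide +kernel

theorem wZ1 : PQ.wf 1 C.eZ1 = true := by decide +kernel

theorem cZ1 : checkTree 1 C.eZ1 [C.bZ] C.tZ = true := by decide +kernel

theorem wZ2 : PQ.wf 1 C.eZ2 = true := by decide +kernel

theorem cZ2 : checkTree 1 C.eZ2 [C.bZ] C.tZ = true := by decide +kernel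

theorem wZ3 : PQ.wf 1 C.eZ3 = true := by decide +kernel

theorem cZ3 : checkTree 1 C.eZ3 [C.bZ] C.tZ = true := by decide +kernel

theorem iv_mk {l h : ℤ} {D : ℕ} {lo hi : ℝ} (h0 : 0 < D) (hl : l < h) (h1 : (l : ℝ) ≤ (D : ℝ) * lo)
    (h2 : (D : ℝ) * hi ≤ (h : ℝ)) : Iv (l, h, D) lo hi := ⟨h0, hl, h1, h2⟩

/-- all checks together -/
theorem ok : C.T2OK X where
  i1 := by decide
  i2 := by decide
  s1 := by decide
  s2 := by decide
  ha := by
    show 0 ≤ rv (28, 3)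
    norm_num [rv]
  hb := by
    show 0 ≤ rv (30, 1)
    norm_num [rv]
  hc := by
    show 0 ≤ rv (63, 2)
    norm_num [rv]
  hg := by
    show 0 < rv (9, 25000)
    norm_num [rv]
  hr1 := by
    show 0 ≤ rv (3, 4)
    norm_num [rv]
  hr2 := by
    show 0 ≤ rv (11, 12)
    norm_num [rv]
  hr1' := by
    show rv (3, 4) ≤ 1
    norm_num [rv]
  hr2' := by
    show rv (11, 12) ≤ 1
    norm_num [rv]
  ht1 := by
    show 0 ≤ rv (41, 100)
    norm_num [rv]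
  ht2 := by
    show rv (21, 50) ≤ 1 / 2
    norm_num [rv]
  hkp0 := by
    show 0 < rv (3, 2)
    norm_num [rv]
  hrho0 := by
    show 0 < rv (36, 125)
    norm_num [rv]
  hm0 := by
    show (1 + rv (21, 50)) / 3 ≤ rv (71, 150)
    norm_num [rv]
  hm20 := by
    show 2 * rv (71, 150) < 1
    norm_num [rv]
  hm0d := by decide
  ha0 := by decide
  hb0 := by decide
  hc0 := by decide
  hratio := by
    show rv (71, 150) * (((500 : ℤ) : ℝ)) ^ 6 ≤ (1 - 2 * rv (71, 150)) * (((721 : ℤ) : ℝ)) ^ 6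
    norm_num [rv]
  cChord := cChord
  cX := cX
  cY1 := cY1
  cY2 := cY2
  cM1 := cM1
  cM2 := cM2
  cN1 := cN1
  cN2 := cN2
  iRho := by
    show Iv (0, 36, 125) (0) (rv (36, 125))
    exact iv_mk (by norm_num) (by norm_num) (by norm_num [rv]) (by norm_num [rv])
  iR3 := by
    show Iv (288, 1000, 1000) (rv (36, 125)) (1)
    exact iv_mk (by norm_num) (by norm_num) (by norm_num [rv]) (by norm_num [rv])
  iRW := by
    show Iv (0, 1, 1) (0) (1)
    exact iv_mk (by norm_num) (by norm_num) (by norm_num [rv]) (by norm_num [rv])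
  iBeta := by
    show Iv (0, 4, 4) (0) (1)
    exact iv_mk (by norm_num) (by norm_num) (by norm_num [rv]) (by norm_num [rv])
  iT := by
    show Iv (41, 42, 100) (rv (41, 100)) (rv (21, 50))
    exact iv_mk (by norm_num) (by norm_num) (by norm_num [rv]) (by norm_num [rv])
  iKap := by
    show Iv (0, 24, 16) (0) (rv (3, 2))
    exact iv_mk (by norm_num) (by norm_num) (by norm_num [rv]) (by norm_num [rv])
  iEps := by
    show Iv (0, 1, 1000) (0) (0)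
    exact iv_mk (by norm_num) (by norm_num) (by norm_num [rv]) (by norm_num [rv])
  iTh := by
    show Iv (0, 8, 64) (0) (rv (1, 8))
    exact iv_mk (by norm_num) (by norm_num) (by norm_num [rv]) (by norm_num [rv])
  iZ := by
    show Iv (0, 10584, 15625) (0) ((rv (21, 50)) ^ 2 * (3 + 2 * rv (21, 50)))
    exact iv_mk (by norm_num) (by norm_num) (by norm_num [rv]) (by norm_num [rv])
  iSig := by
    show (0 : ℤ) < 177 ∧ ((0 : ℤ) : ℝ) ≤ 0 ∧ 0 < 500 ∧ 0 ≤ ((177 : ℤ) : ℝ) ∧ ((500 : ℕ) : ℝ) ^ 2 * rv (1, 8) ≤ ((177 : ℤ) : ℝ) ^ 2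
    norm_num [rv]
  iNu := by
    show (0 : ℤ) < 817 ∧ ((0 : ℤ) : ℝ) ≤ 0 ∧ 0 < 1000 ∧ 0 ≤ ((817 : ℤ) : ℝ) ∧ ((1000 : ℕ) : ℝ) ^ 2 ≤ ((817 : ℤ) : ℝ) ^ 2 * rv (3, 2)
    norm_num [rv]
  wQ1 := wQ1
  cQ1 := cQ1
  wQ2 := wQ2
  cQ2 := cQ2
  wQ3 := wQ3
  cQ3 := cQ3
  wW := wW
  cW := cW
  wK := wK
  cK := cK
  wS1 := wS1
  cS1 := cS1
  wS2 := wS2
  cS2 := cS2
  wC := wC
  cC := cC
  wXi := wXi
  cXi := cXi
  wE := wE
  cE := cE
  wZ1 := wZ1
  cZ1 := cZ1
  wZ2 := wZ2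
  cZ2 := cZ2
  wZ3 := wZ3
  cZ3 := cZ3


/-- the bound on the convex functional at the hand-off that this certificate needs -/
theorem tail {d t : ℝ} (hd : 0 < d) (ht1 : (41 / 100 : ℝ) ≤ t) (ht2 : t ≤ (21 / 50 : ℝ)) (hKS : d * t ^ 2 ≤ 1) {N : ℕ}
    (hN : gwEx (poissonLaw d) (-t) N (HF (651 / 1000 : ℝ) (413 / 125 : ℝ) t) ≤ (1 / 8 : ℝ)) :
    Filter.Tendsto (fun n => gwEx (poissonLaw d) (-t) n I2) Filter.atTop (nhds 0) := by
  have ht0 : 0 < t := lt_of_lt_of_le (by norm_num) ht1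
  refine Cst.t2_tail (b2 := (651 / 1000 : ℝ)) (b3 := (413 / 125 : ℝ)) ok hd ht0 ?_ ?_ hKS ?_ ?_ (N := N) ?_
  · show rv (41, 100) ≤ t
    have e : rv (41, 100) = (41 / 100 : ℝ) := by norm_num [rv]
    rw [e]
    exact ht1
  · show t ≤ rv (21, 50)
    have e : rv (21, 50) = (21 / 50 : ℝ) := by norm_num [rv]
    rw [e]
    exact ht2
  · have h : t ^ 2 * (3 / 2 + t) ^ 2 ≤ (21 / 50 : ℝ) ^ 2 * (3 / 2 + (21 / 50 : ℝ)) ^ 2 := by gcongr
    exact h.trans (by norm_num)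
  · have h : 15 * t ^ 4 * (3 / 2 + t) ^ 3 ≤ 15 * (21 / 50 : ℝ) ^ 4 * (3 / 2 + (21 / 50 : ℝ)) ^ 3 := by gcongr
    exact h.trans (by norm_num)
  · show _ ≤ rv (1, 8)
    have e : rv (1, 8) = (1 / 8 : ℝ) := by norm_num [rv]
    rw [e]
    exact hN

end Vale.Agent.Lib.P154.Neg.B4200
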