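import Vale.Agent.Lib.P154.Neg.LP.B4730.D
import Vale.Agent.Lib.P154.Neg.LP.B4730.P0
import Vale.Agent.Lib.P154.Neg.LP.B4730.P1
import Vale.Agent.Lib.P154.Neg.LP.B4730.P2
import Vale.Agent.Lib.P154.Neg.LP.B4730.P3
import Vale.Agent.Lib.P154.Neg.LP.B4730.P4
import Vale.Agent.Lib.P154.Neg.LP.B4730.P5
import Vale.Agent.Lib.P154.Neg.LP.B4730.P6
import Vale.Agent.Lib.P154.Neg.LP.B4730.P7

/-!
A certificate for a restricted range of `theta`, with all its checks.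
-/

namespace Vale.Agent.Lib.P154.Neg.B4730

open Vale.Agent.Lib.P154.Neg.Kron Vale.Agent.Lib.P154.Neg Vale.Agent.Lib.P154.Neg.Cst

theorem ctX_9 : checkCT C.A C.eX (c20 (c21 (c10 (c12 (c20 (M0)))))) tX_9 = true := checkCT_s01 ctX_10 ctX_11

theorem ctX_7 : checkCT C.A C.eX (c21 (c10 (c12 (c20 (M0))))) tX_7 = true := checkCT_s02 ctX_8 ctX_9

theorem ctX_5 : checkCT C.A C.eX (c10 (c12 (c20 (M0)))) tX_5 = true := checkCT_s12 ctX_6 ctX_7

theorem ctX_3 : checkCT C.A C.eX (c12 (c20 (M0))) tX_3 = true := checkCT_s01 ctX_4 ctX_5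

theorem ctX_16 : checkCT C.A C.eX (c21 (c20 (c21 (c20 (M0))))) tX_16 = true := checkCT_s02 ctX_17 ctX_18

theorem ctX_14 : checkCT C.A C.eX (c20 (c21 (c20 (M0)))) tX_14 = true := checkCT_s12 ctX_15 ctX_16

theorem ctX_12 : checkCT C.A C.eX (c21 (c20 (M0))) tX_12 = true := checkCT_s02 ctX_13 ctX_14

theorem ctX_2 : checkCT C.A C.eX (c20 (M0)) tX_2 = true := checkCT_s12 ctX_3 ctX_12

theorem ctX_0 : checkCT C.A C.eX (M0) tX_0 = true := checkCT_s02 ctX_1 ctX_2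

theorem ctY1_3 : checkCT C.A C.eY1 (c02 (c02 (c02 (MC C.a0 C.b0 C.c0)))) tY1_3 = true := checkCT_s02 ctY1_4 ctY1_5

theorem ctY1_2 : checkCT C.A C.eY1 (c02 (c02 (MC C.a0 C.b0 C.c0))) tY1_2 = true := checkCT_s02 ctY1_3 ctY1_6

theorem ctY1_1 : checkCT C.A C.eY1 (c02 (MC C.a0 C.b0 C.c0)) tY1_1 = true := checkCT_s02 ctY1_2 ctY1_7

theorem ctY1_0 : checkCT C.A C.eY1 (MC C.a0 C.b0 C.c0) tY1_0 = true := checkCT_s02 ctY1_1 ctY1_8

theorem ctQ1_0 : checkTree 4 (eQ1t C) btQ1_root tQ1_0 = true := checkTree_split ctQ1_1 ctQ1_2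

theorem ctQ3_7 : checkTree 4 (eQ3t C) btQ3_6l tQ3_7 = true := checkTree_split ctQ3_8 ctQ3_9

theorem ctQ3_6 : checkTree 4 (eQ3t C) btQ3_5l tQ3_6 = true := checkTree_split ctQ3_7 ctQ3_10

theorem ctQ3_5 : checkTree 4 (eQ3t C) btQ3_3r tQ3_5 = true := checkTree_split ctQ3_6 ctQ3_11

theorem ctQ3_3 : checkTree 4 (eQ3t C) btQ3_2l tQ3_3 = true := checkTree_split ctQ3_4 ctQ3_5

theorem ctQ3_2 : checkTree 4 (eQ3t C) btQ3_1l tQ3_2 = true := checkTree_split ctQ3_3 ctQ3_12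

theorem ctQ3_27 : checkTree 4 (eQ3t C) btQ3_25r tQ3_27 = true := checkTree_split ctQ3_28 ctQ3_29

theorem ctQ3_25 : checkTree 4 (eQ3t C) btQ3_24l tQ3_25 = true := checkTree_split ctQ3_26 ctQ3_27

theorem ctQ3_24 : checkTree 4 (eQ3t C) btQ3_22r tQ3_24 = true := checkTree_split ctQ3_25 ctQ3_30

theorem ctQ3_22 : checkTree 4 (eQ3t C) btQ3_21l tQ3_22 = true := checkTree_split ctQ3_23 ctQ3_24

theorem ctQ3_21 : checkTree 4 (eQ3t C) btQ3_19r tQ3_21 = true := checkTree_split ctQ3_22 ctQ3_31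

theorem ctQ3_19 : checkTree 4 (eQ3t C) btQ3_17r tQ3_19 = true := checkTree_split ctQ3_20 ctQ3_21

theorem ctQ3_17 : checkTree 4 (eQ3t C) btQ3_16l tQ3_17 = true := checkTree_split ctQ3_18 ctQ3_19

theorem ctQ3_16 : checkTree 4 (eQ3t C) btQ3_14r tQ3_16 = true := checkTree_split ctQ3_17 ctQ3_32

theorem ctQ3_14 : checkTree 4 (eQ3t C) btQ3_13l tQ3_14 = true := checkTree_split ctQ3_15 ctQ3_16

theorem ctQ3_13 : checkTree 4 (eQ3t C) btQ3_1r tQ3_13 = true := checkTree_split ctQ3_14 ctQ3_33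

theorem ctQ3_1 : checkTree 4 (eQ3t C) btQ3_0l tQ3_1 = true := checkTree_split ctQ3_2 ctQ3_13

theorem ctQ3_37 : checkTree 4 (eQ3t C) btQ3_35r tQ3_37 = true := checkTree_split ctQ3_38 ctQ3_39

theorem ctQ3_35 : checkTree 4 (eQ3t C) btQ3_34l tQ3_35 = true := checkTree_split ctQ3_36 ctQ3_37

theorem ctQ3_34 : checkTree 4 (eQ3t C) btQ3_0r tQ3_34 = true := checkTree_split ctQ3_35 ctQ3_40

theorem ctQ3_0 : checkTree 4 (eQ3t C) btQ3_root tQ3_0 = true := checkTree_split ctQ3_1 ctQ3_34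

theorem cChord : checkAuto 2 C.eChord = true := by decide +kernel

theorem cX : checkCT C.A C.eX (M0) C.tX = true := ctX_0

theorem cY1 : checkCT C.A C.eY1 (MC C.a0 C.b0 C.c0) C.tY1 = true := ctY1_0

theorem cY2 : checkCT C.A C.eY2 (MC C.a0 C.b0 C.c0) C.tY2 = true := ctY2_0

theorem cM1 : checkCT C.A (psub (.var 0) (.var 2)) M0 C.tM1 = true := by decide +kernel

theorem cM2 : checkCT C.A (psub (.var 1) (.var 2)) M0 C.tM2 = true := by decide +kernel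

theorem cN1 : checkCT C.A (psub (pk 1) (.var 0)) M0 C.tN1 = true := by decide +kernel

theorem cN2 : checkCT C.A (psub (pk 1) (.var 1)) M0 C.tN2 = true := by decide +kernel

theorem wQ1 : PQ.wf 4 (eQ1t C) = true := by decide +kernel

theorem cQ1 : checkTree 4 (eQ1t C) [C.bRho, C.bBeta, C.bT, C.bKap] C.tQ1 = true := ctQ1_0

theorem wQ2 : PQ.wf 4 (eQ2t C) = true := by decide +kernel

theorem cQ2 : checkTree 4 (eQ2t C) [C.bSig, C.bNu, C.bBeta, C.bT] C.tQ2 = true := by decide +kernel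

theorem wQ3 : PQ.wf 4 (eQ3t C) = true := by decide +kernel

theorem cQ3 : checkTree 4 (eQ3t C) [X.bR3, C.bBeta, C.bT, C.bTh] X.tQ3 = true := ctQ3_0

theorem wW : PQ.wf 2 C.eWp = true := by decide +kernel

theorem cW : checkTree 2 C.eWp [X.bRW, C.bBeta] C.tW = true := by decide +kernel

theorem wK : PQ.wf 2 C.eKg = true := by decide +kernel

theorem cK : checkTree 2 C.eKg [C.bTh, C.bEps] C.tK = true := by decide +kernel

theorem wS1 : PQ.wf 2 C.eS1 = true := by decide +kernel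

theorem cS1 : checkTree 2 C.eS1 [C.bTh, C.bEps] C.tS1 = true := by decide +kernel

theorem wS2 : PQ.wf 2 C.eS2 = true := by decide +kernel

theorem cS2 : checkTree 2 C.eS2 [C.bTh, C.bEps] C.tS2 = true := by decide +kernel

theorem wC : PQ.wf 3 (eRr (.var 2) (.var 0) (.var 1)) = true := by decide +kernel

theorem cC : checkTree 3 (eRr (.var 2) (.var 0) (.var 1)) [C.bTh, C.bTh, C.bEps] C.tC = true := by decide +kernel

theorem wXi : PQ.wf 2 C.eXiE = true := by decide +kernel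

theorem cXi : checkTree 2 C.eXiE [C.bTh, C.bEps] C.tXi = true := by decide +kernel

theorem wE : PQ.wf 2 C.Ek = true := by decide +kernel

theorem cE : checkTree 2 C.Ek [C.bTh, C.bEps] C.tE = true := by decide +kernel

theorem wZ1 : PQ.wf 1 C.eZ1 = true := by decide +kernel

theorem cZ1 : checkTree 1 C.eZ1 [C.bZ] C.tZ = true := by decide +kernel

theorem wZ2 : PQ.wf 1 C.eZ2 = true := by decide +kernel

theorem cZ2 : checkTree 1 C.eZ2 [C.bZ] C.tZ = true := by decide +kernel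

theorem wZ3 : PQ.wf 1 C.eZ3 = true := by decide +kernel

theorem cZ3 : checkTree 1 C.eZ3 [C.bZ] C.tZ = true := by decide +kernel

theorem iv_mk {l h : ℤ} {D : ℕ} {lo hi : ℝ} (h0 : 0 < D) (hl : l < h) (h1 : (l : ℝ) ≤ (D : ℝ) * lo)
    (h2 : (D : ℝ) * hi ≤ (h : ℝ)) : Iv (l, h, D) lo hi := ⟨h0, hl, h1, h2⟩

/-- all checks together -/
theorem ok : C.T2OK X where
  i1 := by decide
  i2 := by decide
  s1 := by decide
  s2 := by decide
  ha := by
    show 0 ≤ rv (424, 45)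
    norm_num [rv]
  hb := by
    show 0 ≤ rv (148, 5)
    norm_num [rv]
  hc := by
    show 0 ≤ rv (156, 5)
    norm_num [rv]
  hg := by
    show 0 < rv (9, 25000)
    norm_num [rv]
  hr1 := by
    show 0 ≤ rv (3, 4)
    norm_num [rv]
  hr2 := by
    show 0 ≤ rv (11, 12)
    norm_num [rv]
  hr1' := by
    show rv (3, 4) ≤ 1
    norm_num [rv]
  hr2' := by
    show rv (11, 12) ≤ 1
    norm_num [rv]
  ht1 := by
    show 0 ≤ rv (469, 1000)
    norm_num [rv]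
  ht2 := by
    show rv (473, 1000) ≤ 1 / 2
    norm_num [rv]
  hkp0 := by
    show 0 < rv (3, 2)
    norm_num [rv]
  hrho0 := by
    show 0 < rv (1, 5)
    norm_num [rv]
  hm0 := by
    show (1 + rv (473, 1000)) / 3 ≤ rv (491, 1000)
    norm_num [rv]
  hm20 := by
    show 2 * rv (491, 1000) < 1
    norm_num [rv]
  hm0d := by decide
  ha0 := by decide
  hb0 := by decide
  hc0 := by decide
  hratio := by
    show rv (491, 1000) * (((500 : ℤ) : ℝ)) ^ 6 ≤ (1 - 2 * rv (491, 1000)) * (((869 : ℤ) : ℝ)) ^ 6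
    norm_num [rv]
  cChord := cChord
  cX := cX
  cY1 := cY1
  cY2 := cY2
  cM1 := cM1
  cM2 := cM2
  cN1 := cN1
  cN2 := cN2
  iRho := by
    show Iv (0, 1, 5) (0) (rv (1, 5))
    exact iv_mk (by norm_num) (by norm_num) (by norm_num [rv]) (by norm_num [rv])
  iR3 := by
    show Iv (8, 40, 40) (rv (1, 5)) (1)
    exact iv_mk (by norm_num) (by norm_num) (by norm_num [rv]) (by norm_num [rv])
  iRW := by
    show Iv (0, 1, 1) (0) (1)
    exact iv_mk (by norm_num) (by norm_num) (by norm_num [rv]) (by norm_num [rv])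
  iBeta := by
    show Iv (0, 32, 32) (0) (1)
    exact iv_mk (by norm_num) (by norm_num) (by norm_num [rv]) (by norm_num [rv])
  iT := by
    show Iv (469, 473, 1000) (rv (469, 1000)) (rv (473, 1000))
    exact iv_mk (by norm_num) (by norm_num) (by norm_num [rv]) (by norm_num [rv])
  iKap := by
    show Iv (0, 24, 16) (0) (rv (3, 2))
    exact iv_mk (by norm_num) (by norm_num) (by norm_num [rv]) (by norm_num [rv])
  iEps := by
    show Iv (0, 1, 1000) (0) (0)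
    exact iv_mk (by norm_num) (by norm_num) (by norm_num [rv]) (by norm_num [rv])
  iTh := by
    show Iv (0, 48, 800) (0) (rv (3, 50))
    exact iv_mk (by norm_num) (by norm_num) (by norm_num [rv]) (by norm_num [rv])
  iZ := by
    show Iv (0, 441417317, 500000000) (0) ((rv (473, 1000)) ^ 2 * (3 + 2 * rv (473, 1000)))
    exact iv_mk (by norm_num) (by norm_num) (by norm_num [rv]) (by norm_num [rv])
  iSig := by
    show (0 : ℤ) < 49 ∧ ((0 : ℤ) : ℝ) ≤ 0 ∧ 0 < 200 ∧ 0 ≤ ((49 : ℤ) : ℝ) ∧ ((200 : ℕ) : ℝ) ^ 2 * rv (3, 50) ≤ ((49 : ℤ) : ℝ) ^ 2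
    norm_num [rv]
  iNu := by
    show (0 : ℤ) < 817 ∧ ((0 : ℤ) : ℝ) ≤ 0 ∧ 0 < 1000 ∧ 0 ≤ ((817 : ℤ) : ℝ) ∧ ((1000 : ℕ) : ℝ) ^ 2 ≤ ((817 : ℤ) : ℝ) ^ 2 * rv (3, 2)
    norm_num [rv]
  wQ1 := wQ1
  cQ1 := cQ1
  wQ2 := wQ2
  cQ2 := cQ2
  wQ3 := wQ3
  cQ3 := cQ3
  wW := wW
  cW := cW
  wK := wK
  cK := cK
  wS1 := wS1
  cS1 := cS1
  wS2 := wS2
  cS2 := cS2
  wC := wC
  cC := cC
  wXi := wXi
  cXi := cXi
  wE := wE
  cE := cE
  wZ1 := wZ1
  cZ1 := cZ1
  wZ2 := wZ2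
  cZ2 := cZ2
  wZ3 := wZ3
  cZ3 := cZ3


/-- the bound on the convex functional at the hand-off that this certificate needs -/
theorem tail {d t : ℝ} (hd : 0 < d) (ht1 : (469 / 1000 : ℝ) ≤ t) (ht2 : t ≤ (473 / 1000 : ℝ)) (hKS : d * t ^ 2 ≤ 1) {N : ℕ}
    (hN : gwEx (poissonLaw d) (-t) N (HF (871 / 1000 : ℝ) (5767 / 1000 : ℝ) t) ≤ (3 / 50 : ℝ)) :
    Filter.Tendsto (fun n => gwEx (poissonLaw d) (-t) n I2) Filter.atTop (nhds 0) := by
  have ht0 : 0 < t := lt_of_lt_of_le (by norm_num) ht1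
  refine Cst.t2_tail (b2 := (871 / 1000 : ℝ)) (b3 := (5767 / 1000 : ℝ)) ok hd ht0 ?_ ?_ hKS ?_ ?_ (N := N) ?_
  · show rv (469, 1000) ≤ t
    have e : rv (469, 1000) = (469 / 1000 : ℝ) := by norm_num [rv]
    rw [e]
    exact ht1
  · show t ≤ rv (473, 1000)
    have e : rv (473, 1000) = (473 / 1000 : ℝ) := by norm_num [rv]
    rw [e]
    exact ht2
  · have h : t ^ 2 * (3 / 2 + t) ^ 2 ≤ (473 / 1000 : ℝ) ^ 2 * (3 / 2 + (473 / 1000 : ℝ)) ^ 2 := by gcongr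
    exact h.trans (by norm_num)
  · have h : 15 * t ^ 4 * (3 / 2 + t) ^ 3 ≤ 15 * (473 / 1000 : ℝ) ^ 4 * (3 / 2 + (473 / 1000 : ℝ)) ^ 3 := by gcongr
    exact h.trans (by norm_num)
  · show _ ≤ rv (3, 50)
    have e : rv (3, 50) = (3 / 50 : ℝ) := by norm_num [rv]
    rw [e]
    exact hN

end Vale.Agent.Lib.P154.Neg.B4730
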